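import Mathlib

/-!
Reduced rational homology of the order complex of a finite poset, and a fixed-chain criterion
for it to be nonzero.
-/

namespace Vale.Agent.P240

open MulAction

variable (P : Type) [PartialOrder P]

/-- Strictly increasing chains with `k` members (simplices of dimension `k - 1`). -/
def OrdChain (k : ℕ) : Type := {f : Fin k → P // StrictMono f}

instance [Finite P] (k : ℕ) : Finite (OrdChain P k) :=
  inferInstanceAs (Finite {f : Fin k → P // StrictMono f})

variable {P}

/-- Delete the `i`-th member of a chain. -/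
def OrdChain.face {k : ℕ} (c : OrdChain P (k + 1)) (i : Fin (k + 1)) : OrdChain P k :=
  ⟨c.1 ∘ i.succAbove, c.2.comp (Fin.strictMono_succAbove i)⟩

variable (P) [Finite P]

/-- The augmented simplicial boundary map of the order complex, with rational coefficients. -/
noncomputable def chainBoundary (k : ℕ) :
    (OrdChain P (k + 1) → ℚ) →ₗ[ℚ] (OrdChain P k → ℚ) :=
  letI := Fintype.ofFinite (OrdChain P (k + 1))
  letI := Classical.decEq (OrdChain P k)
  { toFun := fun f σ => ∑ τ, ∑ i : Fin (k + 1),
      if τ.face i = σ then (-1 : ℚ) ^ (i : ℕ) * f τ else 0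
    map_add' := by
      intro f f'
      funext σ
      simp only [Pi.add_apply, ← Finset.sum_add_distrib]
      refine Finset.sum_congr rfl fun τ _ => Finset.sum_congr rfl fun i _ => ?_
      split_ifs <;> ring
    map_smul' := by
      intro a f
      funext σ
      simp only [Pi.smul_apply, smul_eq_mul, RingHom.id_apply, Finset.mul_sum]
      refine Finset.sum_congr rfl fun τ _ => Finset.sum_congr rfl fun i _ => ?_
      split_ifs <;> ring }

/-- The reduced rational homology of the order complex is nonzero in some degree:
some augmented cycle is not a boundary (`OrdChain P 0` is the augmentation). -/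
def HasNonzeroReducedHomology : Prop :=
  (∃ f : OrdChain P 0 → ℚ, f ∉ LinearMap.range (chainBoundary P 0)) ∨
  ∃ k, ∃ f : OrdChain P (k + 1) → ℚ,
    chainBoundary P k f = 0 ∧ f ∉ LinearMap.range (chainBoundary P (k + 1))

variable {P}

theorem face_face {k : ℕ} (c : OrdChain P (k + 2)) (i : Fin (k + 2)) (j : Fin (k + 1))
    (h : (i : ℕ) ≤ j) :
    (c.face i).face j = (c.face j.succ).face (i.castLT (lt_of_le_of_lt h j.2)) := by
  apply Subtype.ext
  funext x
  show c.1 (i.succAbove (j.succAbove x))
    = c.1 (j.succ.succAbove ((i.castLT (lt_of_le_of_lt h j.2)).succAbove x))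
  refine congrArg c.1 ?_
  apply Fin.ext
  have hi := i.2
  have hj := j.2
  have hx := x.2
  simp only [Fin.succAbove, Fin.lt_def, Fin.val_castSucc, Fin.val_succ, Fin.val_castLT]
  split_ifs <;>
    simp_all only [Fin.val_castSucc, Fin.val_succ, Fin.val_castLT] <;> first | omega | exact absurd trivial ‹¬True›

theorem boundary_boundary (k : ℕ) (f : OrdChain P (k + 2) → ℚ) :
    chainBoundary P k (chainBoundary P (k + 1) f) = 0 := by
  classical
  letI := Fintype.ofFinite (OrdChain P (k + 1))
  letI := Fintype.ofFinite (OrdChain P (k + 2))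
  funext ρ
  simp only [chainBoundary, LinearMap.coe_mk, AddHom.coe_mk, Pi.zero_apply]
  have key : ∀ τ : OrdChain P (k + 2),
      ∑ ij : Fin (k + 2) × Fin (k + 1),
        (if (τ.face ij.1).face ij.2 = ρ
          then (-1 : ℚ) ^ ((ij.1 : ℕ) + ij.2) * f τ else 0) = 0 := by
    intro τ
    rw [← Finset.sum_add_sum_compl ({ij | (ij.1 : ℕ) ≤ ij.2} : Finset (Fin (k + 2) × Fin (k + 1))),
      add_eq_zero_iff_eq_neg, ← Finset.sum_neg_distrib]
    refine Finset.sum_bij
      (fun ij hij => (ij.2.succ,
        ij.1.castLT (lt_of_le_of_lt (Finset.mem_filter.mp hij).right ij.2.2))) ?_ ?_ ?_ ?_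
    · intro ij hij
      simp only [Finset.mem_filter, Finset.mem_univ, true_and] at hij
      simp only [Finset.mem_compl, Finset.mem_filter, Finset.mem_univ, true_and, Fin.val_succ,
        Fin.val_castLT]
      omega
    · intro a _ b _ hab
      simp only [Prod.mk.injEq, Fin.succ_inj, Fin.ext_iff, Fin.val_castLT, Fin.val_succ] at hab
      ext <;> omega
    · intro b hb
      simp only [Finset.mem_compl, Finset.mem_filter, Finset.mem_univ, true_and, not_le] at hb
      have hb1 := b.1.2
      refine ⟨(b.2.castSucc, ⟨(b.1 : ℕ) - 1, by omega⟩), ?_, ?_⟩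
      · simp only [Finset.mem_filter, Finset.mem_univ, true_and, Fin.val_castSucc]
        omega
      · ext <;> simp only [Fin.val_succ, Fin.val_castLT, Fin.val_castSucc] <;> omega
    · intro ij hij
      simp only [Finset.mem_filter, Finset.mem_univ, true_and] at hij
      rw [face_face τ ij.1 ij.2 hij]
      simp only [Fin.val_succ, Fin.val_castLT]
      split_ifs
      · rw [show (ij.2 : ℕ) + 1 + ij.1 = (ij.1 : ℕ) + ij.2 + 1 by omega, pow_succ]
        ring
      · ring
  calc _ = ∑ σ : OrdChain P (k + 1), ∑ j : Fin (k + 1), ∑ τ : OrdChain P (k + 2),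
        ∑ i : Fin (k + 2), if τ.face i = σ then
          (if σ.face j = ρ then (-1 : ℚ) ^ ((i : ℕ) + j) * f τ else 0) else 0 := by
        refine Finset.sum_congr rfl fun σ _ => Finset.sum_congr rfl fun j _ => ?_
        split_ifs
        · rw [Finset.mul_sum]
          refine Finset.sum_congr rfl fun τ _ => ?_
          rw [Finset.mul_sum]
          refine Finset.sum_congr rfl fun i _ => ?_
          split_ifs
          · rw [pow_add]; ring
          · ring
        · simp
    _ = ∑ τ : OrdChain P (k + 2), ∑ ij : Fin (k + 2) × Fin (k + 1),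
        (if (τ.face ij.1).face ij.2 = ρ
          then (-1 : ℚ) ^ ((ij.1 : ℕ) + ij.2) * f τ else 0) := by
        rw [Finset.sum_comm]
        conv_lhs => enter [2, j]; rw [Finset.sum_comm]; enter [2, τ]; rw [Finset.sum_comm]
        rw [Finset.sum_comm]
        refine Finset.sum_congr rfl fun τ _ => ?_
        rw [Fintype.sum_prod_type, Finset.sum_comm]
        refine Finset.sum_congr rfl fun i _ => Finset.sum_congr rfl fun j _ => ?_
        rw [Finset.sum_ite_eq]
        simp
    _ = 0 := Finset.sum_eq_zero fun τ _ => key τ

section Action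

variable (D : Type) [Group D] [Finite D] [∀ k, MulAction D (OrdChain P k)]

/-- Functions on chains invariant under `D`. -/
def invFun (k : ℕ) : Submodule ℚ (OrdChain P k → ℚ) where
  carrier := {f | ∀ (h : D) (c : OrdChain P k), f (h • c) = f c}
  add_mem' := by
    intro a b ha hb h c
    simp only [Pi.add_apply, ha h c, hb h c]
  zero_mem' := fun _ _ => rfl
  smul_mem' := by
    intro a f hf h c
    simp only [Pi.smul_apply, hf h c]

/-- Invariant functions are functions on orbits. -/
noncomputable def invFunEquiv (k : ℕ) :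
    (Quotient (orbitRel D (OrdChain P k)) → ℚ) ≃ₗ[ℚ] invFun (P := P) D k where
  toFun u := ⟨fun c => u (Quotient.mk _ c), fun h c =>
    congrArg u (Quotient.sound ⟨h, rfl⟩)⟩
  map_add' _ _ := rfl
  map_smul' _ _ := rfl
  invFun f := Quotient.lift f.1 (by
    rintro a b ⟨h, rfl⟩
    exact f.2 h b)
  left_inv u := by
    funext q
    induction q using Quotient.ind
    rfl
  right_inv f := rfl

variable (hface : ∀ (k : ℕ) (h : D) (c : OrdChain P (k + 1)) (i : Fin (k + 1)),
  (h • c).face i = h • c.face i)

include hface

theorem boundary_smul (k : ℕ) (h : D) (f : OrdChain P (k + 1) → ℚ) (σ : OrdChain P k) :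
    chainBoundary P k (fun c => f (h • c)) σ = chainBoundary P k f (h • σ) := by
  classical
  letI := Fintype.ofFinite (OrdChain P (k + 1))
  simp only [chainBoundary, LinearMap.coe_mk, AddHom.coe_mk]
  refine Fintype.sum_equiv (MulAction.toPerm h) _ _ fun τ => ?_
  refine Finset.sum_congr rfl fun i _ => ?_
  simp only [MulAction.toPerm_apply, hface]
  by_cases h1 : τ.face i = σ
  · simp [h1]
  · rw [if_neg h1, if_neg]
    exact fun e => h1 (MulAction.injective h e)

theorem boundary_mem (k : ℕ) (f : OrdChain P (k + 1) → ℚ) (hf : f ∈ invFun (P := P) D (k + 1)) :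
    chainBoundary P k f ∈ invFun (P := P) D k := by
  intro h σ
  rw [← boundary_smul D hface k h f σ]
  have e : (fun c => f (h • c)) = f := funext fun c => hf h c
  rw [e]

theorem avg_preimage (k : ℕ) (f : OrdChain P k → ℚ) (hf : f ∈ invFun (P := P) D k)
    (hb : f ∈ LinearMap.range (chainBoundary P k)) :
    ∃ u ∈ invFun (P := P) D (k + 1), chainBoundary P k u = f := by
  classical
  letI := Fintype.ofFinite D
  obtain ⟨u, hu⟩ := hb
  refine ⟨(Fintype.card D : ℚ)⁻¹ • ∑ h : D, (fun c => u (h • c)), ?_, ?_⟩
  · intro h c
    simp only [Pi.smul_apply, Finset.sum_apply, smul_smul]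
    congr 1
    refine Fintype.sum_equiv (Equiv.mulRight h) _ _ fun x => ?_
    rfl
  · rw [map_smul, map_sum]
    have e : ∀ h : D, chainBoundary P k (fun c => u (h • c)) = f := by
      intro h
      funext σ
      rw [boundary_smul D hface, hu, hf h σ]
    rw [Finset.sum_congr rfl fun h _ => e h, Finset.sum_const, Finset.card_univ,
      ← Nat.cast_smul_eq_nsmul ℚ, smul_smul, inv_mul_cancel₀, one_smul]
    exact_mod_cast Fintype.card_ne_zero

end Action

theorem chain_isEmpty {k : ℕ} (hk : Nat.card P < k) : IsEmpty (OrdChain P k) :=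
  ⟨fun c => by
    have := Nat.card_le_card_of_injective c.1 c.2.injective
    rw [Nat.card_eq_fintype_card, Fintype.card_fin] at this
    omega⟩

/-- If the reduced homology vanishes, the alternating count of `D`-orbits of chains is zero. -/
theorem orbit_alt_sum_eq_zero (D : Type) [Group D] [Finite D]
    [∀ k, MulAction D (OrdChain P k)]
    (hface : ∀ (k : ℕ) (h : D) (c : OrdChain P (k + 1)) (i : Fin (k + 1)),
      (h • c).face i = h • c.face i)
    (hac : ¬ HasNonzeroReducedHomology P) :
    ∑ k ∈ Finset.range (Nat.card P + 2),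
      (-1 : ℤ) ^ k * (Nat.card (Quotient (orbitRel D (OrdChain P k))) : ℤ) = 0 := by
  classical
  simp only [HasNonzeroReducedHomology, not_or, not_exists, not_and, not_not] at hac
  let d : ∀ k, invFun (P := P) D (k + 1) →ₗ[ℚ] invFun (P := P) D k :=
    fun k => (chainBoundary P k).restrict (fun f hf => boundary_mem D hface k f hf)
  let n : ℕ → ℤ := fun k => (Nat.card (Quotient (orbitRel D (OrdChain P k))) : ℤ)
  let rk : ℕ → ℤ := fun k => (Module.finrank ℚ (LinearMap.range (d k)) : ℤ)
  have hfin : ∀ k, FiniteDimensional ℚ (invFun (P := P) D k) := fun k =>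
    Module.Finite.equiv (invFunEquiv (P := P) D k)
  have hn : ∀ k, n k = Module.finrank ℚ (invFun (P := P) D k) := by
    intro k
    letI := Fintype.ofFinite (Quotient (orbitRel D (OrdChain P k)))
    rw [← (invFunEquiv (P := P) D k).finrank_eq, Module.finrank_pi]
    simp only [n, Nat.card_eq_fintype_card]
  have h0 : n 0 = rk 0 := by
    rw [hn]
    have h0' : LinearMap.range (d 0) = ⊤ := by
      refine LinearMap.range_eq_top.2 fun f => ?_
      obtain ⟨u, hu, e⟩ := avg_preimage D hface 0 f.1 f.2 (hac.1 f.1)
      exact ⟨⟨u, hu⟩, Subtype.ext e⟩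
    simp only [rk]
    rw [h0', finrank_top]
  have hs : ∀ k, n (k + 1) = rk k + rk (k + 1) := by
    intro k
    have hker : LinearMap.ker (d k) = LinearMap.range (d (k + 1)) := by
      apply le_antisymm
      · intro f hf
        have hf' : chainBoundary P k f.1 = 0 := congrArg Subtype.val (LinearMap.mem_ker.1 hf)
        obtain ⟨u, hu, e⟩ := avg_preimage D hface (k + 1) f.1 f.2 (hac.2 k f.1 hf')
        exact ⟨⟨u, hu⟩, Subtype.ext e⟩
      · rintro _ ⟨u, rfl⟩
        exact LinearMap.mem_ker.2 (Subtype.ext (boundary_boundary k u.1))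
    rw [hn, ← LinearMap.finrank_range_add_finrank_ker (d k), hker]
    push_cast
    rfl
  have htel : ∀ N, ∑ k ∈ Finset.range (N + 1), (-1 : ℤ) ^ k * n k = (-1) ^ N * rk N := by
    intro N
    induction N with
    | zero => simp [h0]
    | succ N ih =>
      rw [Finset.sum_range_succ, ih, hs, pow_succ]
      ring
  have hz : rk (Nat.card P + 1) = 0 := by
    haveI := chain_isEmpty (P := P) (k := Nat.card P + 1) (Nat.lt_succ_self _)
    have : Subsingleton (invFun (P := P) D (Nat.card P + 1)) := by
      constructor
      intro a b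
      exact Subtype.ext (funext fun c => isEmptyElim c)
    simp only [rk]
    rw [Module.finrank_zero_of_subsingleton]
    rfl
  rw [htel (Nat.card P + 1), hz, mul_zero]

section Criterion

variable (K : Type) [Group K] [Finite K] [MulAction K P]

/-- Alternating number of chains fixed by one element. -/
noncomputable def fixedAltCount [∀ k, MulAction K (OrdChain P k)] (h : K) : ℤ :=
  ∑ k ∈ Finset.range (Nat.card P + 2), (-1 : ℤ) ^ k * (Nat.card (fixedBy (OrdChain P k) h) : ℤ)

/-- An action by order-preserving maps acts on chains. -/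
@[implicit_reducible]
def chainAction (hmono : ∀ h : K, Monotone (fun x : P => h • x)) (k : ℕ) :
    MulAction K (OrdChain P k) where
  smul h c := ⟨fun i => h • c.1 i,
    ((hmono h).strictMono_of_injective (MulAction.injective h)).comp c.2⟩
  one_smul c := Subtype.ext (funext fun i => one_smul K (c.1 i))
  mul_smul a b c := Subtype.ext (funext fun i => mul_smul a b (c.1 i))

theorem fixedAltCount_eq_zero [∀ k, MulAction K (OrdChain P k)]
    (hface : ∀ (k : ℕ) (h : K) (c : OrdChain P (k + 1)) (i : Fin (k + 1)),
      (h • c).face i = h • c.face i)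
    (hac : ¬ HasNonzeroReducedHomology P) (g : K) : fixedAltCount (P := P) K g = 0 := by
  classical
  induction hN : orderOf g using Nat.strong_induction_on generalizing g with
  | _ N ih =>
    let D := Subgroup.zpowers g
    letI : Fintype D := Fintype.ofFinite D
    have horb := orbit_alt_sum_eq_zero (P := P) D (fun k h c i => hface k h c i) hac
    have hsum : ∑ h : D, fixedAltCount (P := P) K (h : K) = 0 := by
      unfold fixedAltCount
      rw [Finset.sum_comm]
      have hb : ∀ k, ∑ h : D, (Nat.card (fixedBy (OrdChain P k) (h : K)) : ℤ)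
          = (Nat.card (Quotient (orbitRel D (OrdChain P k))) : ℤ) * Fintype.card D := by
        intro k
        letI := Fintype.ofFinite (OrdChain P k)
        letI := Fintype.ofFinite (Quotient (orbitRel D (OrdChain P k)))
        have := MulAction.sum_card_fixedBy_eq_card_orbits_mul_card_group D (OrdChain P k)
        rw [Nat.card_eq_fintype_card (α := Quotient _)]
        rw [← Nat.cast_mul, ← this, Nat.cast_sum]
        refine Finset.sum_congr rfl fun h _ => ?_
        rw [← Nat.card_eq_fintype_card]
        rfl
      simp only [← Finset.mul_sum, hb]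
      simp only [← mul_assoc, ← Finset.sum_mul, horb, zero_mul]
    have hterm : ∀ h : D, fixedAltCount (P := P) K (h : K)
        = if orderOf (h : K) = N then fixedAltCount (P := P) K g else 0 := by
      intro h
      split_ifs with e
      · have hz : Subgroup.zpowers (h : K) = Subgroup.zpowers g := by
          refine Subgroup.eq_of_le_of_card_ge (Subgroup.zpowers_le.2 h.2) ?_
          rw [Nat.card_zpowers, Nat.card_zpowers, e, hN]
        unfold fixedAltCount
        refine Finset.sum_congr rfl fun k _ => ?_
        congr 3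
        congr 1
        ext c
        simp only [mem_fixedBy]
        constructor
        · intro hc
          obtain ⟨z, hz'⟩ : g ∈ Subgroup.zpowers (h : K) := hz ▸ Subgroup.mem_zpowers g
          rw [← hz']
          exact (MulAction.stabilizer K c).zpow_mem hc z
        · intro hc
          obtain ⟨z, hz'⟩ := h.2
          rw [← hz']
          exact (MulAction.stabilizer K c).zpow_mem hc z
      · refine ih (orderOf (h : K)) (lt_of_le_of_ne ?_ e) (h : K) rfl
        rw [← hN]
        exact Nat.le_of_dvd (orderOf_pos g) (orderOf_dvd_of_mem_zpowers h.2)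
    rw [Finset.sum_congr rfl fun h _ => hterm h, ← Finset.sum_filter, Finset.sum_const,
      nsmul_eq_mul] at hsum
    refine (mul_eq_zero.1 hsum).resolve_left ?_
    have : (⟨g, Subgroup.mem_zpowers g⟩ : D) ∈
        ({h | orderOf (h : K) = N} : Finset D) :=
      Finset.mem_filter.2 ⟨Finset.mem_univ _, hN⟩
    exact_mod_cast (Finset.card_pos.2 ⟨_, this⟩).ne'

/-- An element `g` and a commuting `r`-group `Q` with no common fixed point in `P`
force nonzero reduced rational homology. -/
theorem hasNonzeroReducedHomology_of_no_fixed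
    (hmono : ∀ h : K, Monotone (fun x : P => h • x))
    (r : ℕ) [Fact r.Prime] (g : K) (Q : Subgroup K) (hQ : IsPGroup r Q)
    (hcomm : ∀ h ∈ Q, h * g = g * h)
    (hno : ∀ x : P, g • x = x → ¬ ∀ h ∈ Q, h • x = x) :
    HasNonzeroReducedHomology P := by
  classical
  by_contra hac
  letI := fun k => chainAction (P := P) K hmono k
  have ha := fixedAltCount_eq_zero (P := P) K (fun k h c i => rfl) hac g
  unfold fixedAltCount at ha
  have hkey : ∀ k, ((Nat.card (fixedBy (OrdChain P k) g) : ℕ) : ZMod r)
      = if k = 0 then 1 else 0 := by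
    intro k
    letI : MulAction Q (fixedBy (OrdChain P k) g) :=
      { smul := fun h c => ⟨(h : K) • c.1, by
          have hc : g • c.1 = c.1 := c.2
          rw [mem_fixedBy, ← mul_smul, ← hcomm _ h.2, mul_smul, hc]⟩
        one_smul := fun c => Subtype.ext (one_smul K c.1)
        mul_smul := fun a b c => Subtype.ext (mul_smul (a : K) (b : K) c.1) }
    have := (ZMod.natCast_eq_natCast_iff _ _ r).2
      (IsPGroup.card_modEq_card_fixedPoints hQ (fixedBy (OrdChain P k) g))
    rw [this]
    rcases k with - | k
    · simp only [if_true]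
      have h1 : Nat.card (fixedPoints Q (fixedBy (OrdChain P 0) g)) = 1 := by
        let c0 : OrdChain P 0 := ⟨Fin.elim0, fun i => i.elim0⟩
        have hu : ∀ c : OrdChain P 0, c = c0 := fun c => Subtype.ext (funext fun i => i.elim0)
        refine Nat.card_eq_one_iff_unique.2 ⟨⟨fun a b => ?_⟩, ?_⟩
        · exact Subtype.ext (Subtype.ext ((hu _).trans (hu _).symm))
        · exact ⟨⟨⟨c0, hu _⟩, fun h => Subtype.ext (hu _)⟩⟩
      rw [h1, Nat.cast_one]
    · simp only [Nat.succ_ne_zero, if_false]
      have h0 : IsEmpty (fixedPoints Q (fixedBy (OrdChain P (k + 1)) g)) := by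
        constructor
        rintro ⟨⟨c, hc⟩, hcQ⟩
        refine hno (c.1 0) (congrFun (congrArg Subtype.val hc) 0) fun h hh => ?_
        have := congrArg Subtype.val (hcQ ⟨h, hh⟩)
        exact congrFun (congrArg Subtype.val this) 0
      rw [Nat.card_of_isEmpty, Nat.cast_zero]
  have hc := congrArg (Int.cast : ℤ → ZMod r) ha
  simp only [Int.cast_sum, Int.cast_mul, Int.cast_pow, Int.cast_neg, Int.cast_one,
    Int.cast_natCast, Int.cast_zero, hkey] at hc
  rw [Finset.sum_eq_single 0 (fun k _ hk => by simp [hk]) (by simp)] at hc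
  simp at hc

end Criterion

end Vale.Agent.P240
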