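import Mathlib
import Vale.Agent.P240.Homology

/-!
Permutation-group facts for P240: a rigidity lemma for 2-groups of permutations normalised by
disjoint odd cycles, and the choice of such cycles inside a block.
-/

namespace Vale.Agent.P240

open Equiv

variable {X : Type} [Fintype X] [DecidableEq X]

theorem even_card_of_involution (F : Finset X) (f : X → X) (hmem : ∀ u ∈ F, f u ∈ F)
    (hne : ∀ u ∈ F, f u ≠ u) (hinv : ∀ u ∈ F, f (f u) = u) : Even F.card := by
  have h : ∑ _u ∈ F, (1 : ZMod 2) = 0 :=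
    Finset.sum_involution (fun u _ => f u) (fun u _ => by decide) (fun u hu _ => hne u hu)
      hmem hinv
  rw [Finset.sum_const, nsmul_eq_mul, mul_one] at h
  exact ZMod.natCast_eq_zero_iff_even.1 h

omit [Fintype X] [DecidableEq X] in
theorem iterate_mem {O : Set X} (c : Perm X) (hc : ∀ z ∈ O, c z ∈ O) (n : ℕ) {x : X}
    (hx : x ∈ O) : (c ^ n) x ∈ O := by
  induction n with
  | zero => simpa using hx
  | succ n ih => rw [pow_succ', Perm.mul_apply]; exact hc _ ih

theorem support_subset_of_invariant {O : Set X} (c : Perm X) (hcyc : c.IsCycle)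
    (hc : ∀ z ∈ O, c z ∈ O) {x z : X} (hx : x ∈ O) (hxs : x ∈ c.support) (hz : z ∈ c.support) :
    z ∈ O := by
  obtain ⟨n, hn⟩ := hcyc.exists_pow_eq (Perm.mem_support.1 hxs) (Perm.mem_support.1 hz)
  exact hn ▸ iterate_mem c hc n hx

/-- An elementary abelian 2-group acting on a block `B`, normalised on `B` by disjoint cycles
of odd length covering `B`, acts trivially on `B`. -/
theorem trivial_on_block (B : Finset X) (E : Subgroup (Perm X))
    (hcomm : ∀ a ∈ E, ∀ b ∈ E, a * b = b * a) (hsq : ∀ a ∈ E, a * a = 1)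
    (hB : ∀ a ∈ E, ∀ x ∈ B, a x ∈ B) (C : Finset (Perm X))
    (hcyc : ∀ c ∈ C, c.IsCycle) (hsup : ∀ c ∈ C, c.support ⊆ B)
    (hodd : ∀ c ∈ C, Odd c.support.card)
    (hdis : ∀ c ∈ C, ∀ d ∈ C, c ≠ d → Disjoint c.support d.support)
    (hcov : ∀ x ∈ B, ∃ c ∈ C, x ∈ c.support)
    (hnorm : ∀ c ∈ C, ∀ a ∈ E, ∃ a' ∈ E, ∀ x ∈ B, c (a x) = a' (c x)) :
    ∀ a ∈ E, ∀ x ∈ B, a x = x := by
  classical
  have hsame : ∀ c ∈ C, ∀ x ∈ c.support, ∀ e ∈ E, e x ∈ c.support := by
    intro c hc x hx e he
    by_contra hy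
    have hxB : x ∈ B := hsup c hc hx
    have hyB : e x ∈ B := hB e he x hxB
    obtain ⟨d, hd, hyd⟩ := hcov _ hyB
    have hcd : c ≠ d := fun h => hy (h ▸ hyd)
    have hdisj := hdis c hc d hd hcd
    have hcy : c (e x) = e x := Perm.notMem_support.1 hy
    have hdx : d x = x := Perm.notMem_support.1 (Finset.disjoint_left.1 hdisj hx)
    generalize hy' : e x = y at hy hyB hyd hcy
    let O : Finset X := {z | ∃ a ∈ E, a y = z}
    have memO : ∀ z, z ∈ O ↔ ∃ a ∈ E, a y = z := fun z => by simp [O]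
    have hxO : x ∈ O := (memO x).2 ⟨e, he, by
      rw [← hy', ← Perm.mul_apply, hsq e he, Perm.one_apply]⟩
    have hyO : y ∈ O := (memO y).2 ⟨1, one_mem _, rfl⟩
    have hcO : ∀ z ∈ (O : Set X), c z ∈ (O : Set X) := by
      intro z hz
      obtain ⟨a, ha, rfl⟩ := (memO z).1 hz
      obtain ⟨a', ha', h'⟩ := hnorm c hc a ha
      exact (memO _).2 ⟨a', ha', by rw [h' y hyB, hcy]⟩
    have hdO : ∀ z ∈ (O : Set X), d z ∈ (O : Set X) := by
      intro z hz
      obtain ⟨a, ha, rfl⟩ := (memO z).1 hz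
      obtain ⟨a', ha', h'⟩ := hnorm d hd (a * e) (mul_mem ha he)
      refine (memO _).2 ⟨a' * e, mul_mem ha' he, ?_⟩
      have hae : (a * e) x = a y := by rw [Perm.mul_apply, hy']
      rw [Perm.mul_apply, ← hy', ← Perm.mul_apply e e, hsq e he, Perm.one_apply]
      have := h' x hxB
      rw [hae, hdx] at this
      rw [hy']
      exact this.symm
    have hcs : c.support ⊆ O := fun z hz =>
      support_subset_of_invariant c (hcyc c hc) hcO hxO hx hz
    have hds : d.support ⊆ O \ c.support := fun z hz =>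
      Finset.mem_sdiff.2 ⟨support_subset_of_invariant d (hcyc d hd) hdO hyO hyd hz,
        Finset.disjoint_right.1 hdisj hz⟩
    obtain ⟨z, hzd, hzy⟩ := Finset.exists_mem_ne (hcyc d hd).two_le_card_support y
    obtain ⟨hzO, hzc⟩ := Finset.mem_sdiff.1 (hds hzd)
    obtain ⟨a, ha, haz⟩ := (memO z).1 hzO
    have hne : ∀ u ∈ O, a u ≠ u := by
      intro u hu h
      obtain ⟨b, hb, rfl⟩ := (memO u).1 hu
      rw [← Perm.mul_apply, hcomm a ha b hb, Perm.mul_apply, haz] at h
      exact hzy (b.injective h)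
    have hinv : ∀ u ∈ O, a (a u) = u := fun u _ => by
      rw [← Perm.mul_apply, hsq a ha, Perm.one_apply]
    have hOmem : ∀ u ∈ O, a u ∈ O := by
      intro u hu
      obtain ⟨b, hb, rfl⟩ := (memO u).1 hu
      exact (memO _).2 ⟨a * b, mul_mem ha hb, rfl⟩
    have hOeven : Even O.card := even_card_of_involution O a hOmem hne hinv
    have hFeven : Even (O \ c.support).card := by
      refine even_card_of_involution _ a ?_ (fun u hu => hne u (Finset.mem_sdiff.1 hu).1)
        (fun u hu => hinv u (Finset.mem_sdiff.1 hu).1)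
      intro u hu
      obtain ⟨huO, huc⟩ := Finset.mem_sdiff.1 hu
      refine Finset.mem_sdiff.2 ⟨hOmem u huO, ?_⟩
      rw [Perm.notMem_support] at huc hzc ⊢
      obtain ⟨b, hb, rfl⟩ := (memO u).1 huO
      obtain ⟨a', ha', h'⟩ := hnorm c hc a ha
      have hay : a' y = a y := by
        have := h' y hyB
        rw [hcy, haz, hzc] at this
        rw [haz]
        exact this.symm
      rw [h' _ (hB b hb y hyB), huc, ← Perm.mul_apply, hcomm a' ha' b hb, Perm.mul_apply, hay,
        ← Perm.mul_apply, hcomm b hb a ha, Perm.mul_apply]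
    have h2 := Finset.card_sdiff_add_card_eq_card hcs
    obtain ⟨u, hu⟩ := hOeven
    obtain ⟨v, hv⟩ := hFeven
    obtain ⟨w, hw⟩ := hodd c hc
    omega
  intro e he x hx
  obtain ⟨c, hc, hxc⟩ := hcov x hx
  let act : MulAction E {z // z ∈ c.support} :=
    { smul := fun a z => ⟨(a : Perm X) z.1, hsame c hc z.1 z.2 a a.2⟩
      one_smul := fun z => Subtype.ext rfl
      mul_smul := fun a b z => Subtype.ext rfl }
  have hp : IsPGroup 2 E := fun a => ⟨1, Subtype.ext (by
    simp only [pow_one, Subgroup.coe_pow, pow_two, OneMemClass.coe_one]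
    exact hsq a a.2)⟩
  obtain ⟨z, hz⟩ : (MulAction.fixedPoints E {z // z ∈ c.support}).Nonempty := by
    refine hp.nonempty_fixed_point_of_prime_not_dvd_card _ ?_
    rw [Nat.card_eq_fintype_card, Fintype.card_coe]
    exact (hodd c hc).not_two_dvd_nat
  have hfix : ∀ n : ℕ, ∀ w ∈ c.support, (c ^ n) w = z.1 → ∀ a ∈ E, a w = w := by
    intro n
    induction n with
    | zero =>
      intro w _ hwz a ha
      rw [pow_zero, Perm.one_apply] at hwz
      subst hwz
      exact congrArg Subtype.val (hz ⟨a, ha⟩)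
    | succ n ih =>
      intro w hw hwz a ha
      rw [pow_succ, Perm.mul_apply] at hwz
      obtain ⟨a', ha', h'⟩ := hnorm c hc a ha
      apply c.injective
      rw [h' w (hsup c hc hw)]
      exact ih (c w) (Perm.apply_mem_support.2 hw) hwz a' ha'
  obtain ⟨n, hn⟩ := (hcyc c hc).exists_pow_eq (Perm.mem_support.1 hxc) (Perm.mem_support.1 z.2)
  exact hfix n x hxc hn e he

/-- A cycle on a prescribed set. -/
theorem exists_cycle (S : Finset X) (hS : 2 ≤ S.card) :
    ∃ c : Perm X, c.IsCycle ∧ c.support = S := by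
  have hlen : S.toList.length = S.card := Finset.length_toList S
  refine ⟨S.toList.formPerm, List.isCycle_formPerm S.nodup_toList (by omega), ?_⟩
  rw [List.support_formPerm_of_nodup _ S.nodup_toList, Finset.toList_toFinset]
  intro x hx
  rw [hx, List.length_singleton] at hlen
  omega

theorem sign_cycle {c : Perm X} (hc : c.IsCycle) (hodd : Odd c.support.card) :
    Perm.sign c = 1 := by
  rw [hc.sign, hodd.neg_one_pow, neg_neg]

theorem exists_threeCycles : ∀ (j : ℕ) (S : Finset X), S.card = 3 * j →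
    ∃ T : Finset (Perm X), (∀ t ∈ T, t.IsCycle ∧ t.support.card = 3 ∧ t.support ⊆ S) ∧
      (∀ t ∈ T, ∀ u ∈ T, t ≠ u → Disjoint t.support u.support) ∧
      (∀ x ∈ S, ∃ t ∈ T, x ∈ t.support) := by
  classical
  intro j
  induction j with
  | zero =>
    intro S hS
    obtain rfl : S = ∅ := Finset.card_eq_zero.1 (by simpa using hS)
    exact ⟨∅, by simp, by simp, by simp⟩
  | succ j ih =>
    intro S hS
    obtain ⟨A, hA, hAc⟩ := Finset.exists_subset_card_eq (show 3 ≤ S.card by omega)
    obtain ⟨c, hc, hcs⟩ := exists_cycle A (by omega)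
    obtain ⟨T, h1, h2, h3⟩ := ih (S \ A) (by rw [Finset.card_sdiff_of_subset hA]; omega)
    have hct : ∀ t ∈ T, Disjoint c.support t.support := fun t ht => by
      rw [hcs]
      exact Finset.disjoint_sdiff.mono_right (h1 t ht).2.2
    refine ⟨insert c T, ?_, ?_, ?_⟩
    · intro t ht
      rcases Finset.mem_insert.1 ht with rfl | ht
      · exact ⟨hc, by rw [hcs, hAc], by rw [hcs]; exact hA⟩
      · exact ⟨(h1 t ht).1, (h1 t ht).2.1, (h1 t ht).2.2.trans Finset.sdiff_subset⟩
    · intro t ht u hu htu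
      rcases Finset.mem_insert.1 ht with ht1 | ht1 <;>
        rcases Finset.mem_insert.1 hu with hu1 | hu1
      · exact absurd (ht1.trans hu1.symm) htu
      · rw [ht1]; exact hct u hu1
      · rw [hu1]; exact (hct t ht1).symm
      · exact h2 t ht1 u hu1 htu
    · intro x hx
      by_cases hxA : x ∈ A
      · exact ⟨c, Finset.mem_insert_self _ _, hcs ▸ hxA⟩
      · obtain ⟨t, ht, hxt⟩ := h3 x (Finset.mem_sdiff.2 ⟨hx, hxA⟩)
        exact ⟨t, Finset.mem_insert_of_mem ht, hxt⟩

/-- The elements chosen inside one block: `v` (to be a factor of the cyclic part), commuting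
elements `T` of exponent `r`, and a family `C` of disjoint odd cycles covering the block. -/
structure BlockData (r : ℕ) (G : Subgroup (Perm X)) (B : Finset X) where
  /-- The factor of the cyclic element. -/
  v : Perm X
  /-- Generators of the `r`-part. -/
  T : Finset (Perm X)
  /-- The covering cycles. -/
  C : Finset (Perm X)
  mem_v : v ∈ G
  supp_v : v.support ⊆ B
  mem_T : ∀ t ∈ T, t ∈ G
  supp_T : ∀ t ∈ T, t.support ⊆ B
  comm_v : ∀ t ∈ T, t * v = v * t
  comm_T : ∀ t ∈ T, ∀ u ∈ T, t * u = u * t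
  pow_T : ∀ t ∈ T, t ^ r = 1
  ne_one : ∃ t ∈ T, t ≠ 1
  subset_C : ∀ c ∈ C, c = v ∨ c ∈ T
  cycle : ∀ c ∈ C, c.IsCycle
  odd : ∀ c ∈ C, Odd c.support.card
  disjoint : ∀ c ∈ C, ∀ d ∈ C, c ≠ d → Disjoint c.support d.support
  cover : ∀ x ∈ B, ∃ c ∈ C, x ∈ c.support

theorem commute_of_disjoint_support {t u : Perm X} (h : Disjoint t.support u.support) :
    t * u = u * t :=
  (Perm.disjoint_iff_disjoint_support.2 h).commute.eq

/-- A block of odd size divisible by `r` on which `G` has a cycle through all its points. -/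
theorem blockData_cycle (G : Subgroup (Perm X)) (B : Finset X) (r : ℕ) (hr : r.Prime)
    (hdvd : r ∣ B.card) (hodd : Odd B.card) (c : Perm X) (hcG : c ∈ G) (hc : c.IsCycle)
    (hcs : c.support = B) : Nonempty (BlockData r G B) := by
  classical
  obtain ⟨k, hk⟩ := hdvd
  have hord : orderOf c = r * k := by rw [hc.orderOf, hcs, hk]
  have hk0 : k ≠ 0 := by
    rintro rfl
    exact Nat.not_odd_zero (by simpa [hk] using hodd)
  refine ⟨{
    v := c
    T := {c ^ k}
    C := {c}
    mem_v := hcG
    supp_v := hcs.le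
    mem_T := ?_
    supp_T := ?_
    comm_v := ?_
    comm_T := ?_
    pow_T := ?_
    ne_one := ?_
    subset_C := ?_
    cycle := ?_
    odd := ?_
    disjoint := ?_
    cover := ?_ }⟩
  all_goals simp only [Finset.mem_singleton, forall_eq]
  · exact pow_mem hcG k
  · exact (Perm.support_pow_le c k).trans hcs.le
  · exact (Commute.pow_self c k).eq
  · rw [← pow_mul, mul_comm, ← hord, pow_orderOf_eq_one]
  · refine ⟨c ^ k, rfl, pow_ne_one_of_lt_orderOf hk0 ?_⟩
    rw [hord]
    exact lt_mul_of_one_lt_left (Nat.pos_of_ne_zero hk0) hr.one_lt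
  · exact Or.inl trivial
  · exact hc
  · exact hcs ▸ hodd
  · exact fun h => absurd rfl h
  · exact fun x hx => ⟨c, rfl, hcs ▸ hx⟩

/-- A block of size at least 6 other than 7, for `r = 3`. -/
theorem blockData_three (G : Subgroup (Perm X)) (B : Finset X)
    (halt : ∀ σ : Perm X, Perm.sign σ = 1 → σ.support ⊆ B → σ ∈ G)
    (h6 : 6 ≤ B.card) (h7 : B.card ≠ 7) : Nonempty (BlockData 3 G B) := by
  classical
  have build : ∀ (j : ℕ) (S : Finset X), 1 ≤ j → S ⊆ B → S.card = 3 * j →
      ∀ v : Perm X, Perm.sign v = 1 → v.support = B \ S →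
      (S = B ∨ (v.IsCycle ∧ Odd v.support.card)) → Nonempty (BlockData 3 G B) := by
    intro j S hj hSB hS v hsv hv hcase
    obtain ⟨T, h1, h2, h3⟩ := exists_threeCycles j S hS
    have hodd : ∀ t ∈ T, Odd t.support.card := fun t ht => by rw [(h1 t ht).2.1]; decide
    have hvT : ∀ t ∈ T, Disjoint t.support v.support := fun t ht => by
      rw [hv]
      exact Finset.disjoint_sdiff.mono_left (h1 t ht).2.2
    let C : Finset (Perm X) := if S = B then T else insert v T
    have hC : ∀ c ∈ C, (c = v ∧ S ≠ B) ∨ c ∈ T := by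
      intro c hc
      simp only [C] at hc
      split_ifs at hc with h
      · exact Or.inr hc
      · rcases Finset.mem_insert.1 hc with rfl | hc
        · exact Or.inl ⟨rfl, h⟩
        · exact Or.inr hc
    refine ⟨{
      v := v
      T := T
      C := C
      mem_v := halt v hsv (hv.le.trans Finset.sdiff_subset)
      supp_v := hv.le.trans Finset.sdiff_subset
      mem_T := fun t ht => halt t (sign_cycle (h1 t ht).1 (hodd t ht)) ((h1 t ht).2.2.trans hSB)
      supp_T := fun t ht => (h1 t ht).2.2.trans hSB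
      comm_v := fun t ht => commute_of_disjoint_support (hvT t ht)
      comm_T := fun t ht u hu => by
        by_cases e : t = u
        · rw [e]
        · exact commute_of_disjoint_support (h2 t ht u hu e)
      pow_T := fun t ht => by
        rw [← (h1 t ht).2.1, ← (h1 t ht).1.orderOf]
        exact pow_orderOf_eq_one t
      ne_one := ?_
      subset_C := fun c hc => (hC c hc).imp And.left id
      cycle := ?_
      odd := ?_
      disjoint := ?_
      cover := ?_ }⟩
    · obtain ⟨x, hx⟩ : S.Nonempty := Finset.card_pos.1 (by omega)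
      obtain ⟨t, ht, -⟩ := h3 x hx
      exact ⟨t, ht, (h1 t ht).1.ne_one⟩
    · intro c hc
      rcases hC c hc with ⟨rfl, h⟩ | ht
      · exact (hcase.resolve_left h).1
      · exact (h1 c ht).1
    · intro c hc
      rcases hC c hc with ⟨rfl, h⟩ | ht
      · exact (hcase.resolve_left h).2
      · exact hodd c ht
    · intro c hc d hd hcd
      rcases hC c hc with ⟨rfl, -⟩ | hc' <;> rcases hC d hd with ⟨rfl, -⟩ | hd'
      · exact absurd rfl hcd
      · exact (hvT d hd').symm
      · exact hvT c hc'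
      · exact h2 c hc' d hd' hcd
    · intro x hx
      by_cases hxS : x ∈ S
      · obtain ⟨t, ht, hxt⟩ := h3 x hxS
        refine ⟨t, ?_, hxt⟩
        simp only [C]
        split_ifs
        · exact ht
        · exact Finset.mem_insert_of_mem ht
      · refine ⟨v, ?_, hv ▸ Finset.mem_sdiff.2 ⟨hx, hxS⟩⟩
        simp only [C]
        rw [if_neg (fun h : S = B => hxS (h ▸ hx))]
        exact Finset.mem_insert_self _ _
  have split : ∀ j, 1 ≤ j → 3 * j + 2 ≤ B.card → Odd (B.card - 3 * j) →
      Nonempty (BlockData 3 G B) := by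
    intro j hj hle ho
    obtain ⟨S, hSB, hS⟩ := Finset.exists_subset_card_eq (show 3 * j ≤ B.card by omega)
    have hc' : (B \ S).card = B.card - 3 * j := by rw [Finset.card_sdiff_of_subset hSB, hS]
    obtain ⟨v, hv, hvs⟩ := exists_cycle (B \ S) (by omega)
    have hvo : Odd v.support.card := by rw [hvs, hc']; exact ho
    exact build j S hj hSB hS v (sign_cycle hv hvo) hvs (Or.inr ⟨hv, hvo⟩)
  by_cases h3 : 3 ∣ B.card
  · obtain ⟨j, hj⟩ := h3
    exact build j B (by omega) subset_rfl hj 1 (map_one _) (by simp) (Or.inl rfl)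
  · rcases Nat.even_or_odd B.card with ⟨k, hk⟩ | ⟨k, hk⟩
    · exact split 1 le_rfl (by omega) ⟨k - 2, by omega⟩
    · exact split 2 (by omega) (by omega) ⟨k - 3, by omega⟩

section Group

variable {ι : Type}

/-- Nonidentity elementary abelian `p`-subgroups of `G`, ordered by inclusion. -/
def ElemAbelianPoset (p : ℕ) (G : Type) [Group G] : Type :=
  {E : Subgroup G // E ≠ ⊥ ∧ (∀ a ∈ E, ∀ b ∈ E, a * b = b * a) ∧ ∀ a ∈ E, a ^ p = 1}

instance (p : ℕ) (G : Type) [Group G] : PartialOrder (ElemAbelianPoset p G) :=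
  inferInstanceAs (PartialOrder
    {E : Subgroup G // E ≠ ⊥ ∧ (∀ a ∈ E, ∀ b ∈ E, a * b = b * a) ∧ ∀ a ∈ E, a ^ p = 1})

instance (p : ℕ) (G : Type) [Group G] [Finite G] : Finite (ElemAbelianPoset p G) :=
  inferInstanceAs (Finite
    {E : Subgroup G // E ≠ ⊥ ∧ (∀ a ∈ E, ∀ b ∈ E, a * b = b * a) ∧ ∀ a ∈ E, a ^ p = 1})

/-- Conjugation on elementary abelian subgroups. -/
@[implicit_reducible]
def conjAction (p : ℕ) (G : Type) [Group G] : MulAction G (ElemAbelianPoset p G) where
  smul h E := ⟨E.1.map (MulAut.conj h).toMonoidHom, by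
    refine ⟨?_, ?_, ?_⟩
    · exact fun e => E.2.1 ((Subgroup.map_eq_bot_iff_of_injective _
        (MulAut.conj h).injective).1 e)
    · rintro _ ⟨a, ha, rfl⟩ _ ⟨b, hb, rfl⟩
      rw [← map_mul, E.2.2.1 a ha b hb, map_mul]
    · rintro _ ⟨a, ha, rfl⟩
      rw [← map_pow, E.2.2.2 a ha, map_one]⟩
  one_smul E := Subtype.ext (SetLike.ext fun a => by
    show a ∈ E.1.map (MulAut.conj (1 : G)).toMonoidHom ↔ a ∈ E.1
    rw [map_one]
    exact ⟨fun ⟨b, hb, e⟩ => e ▸ hb, fun h => ⟨a, h, rfl⟩⟩)
  mul_smul x y E := Subtype.ext (by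
    show E.1.map (MulAut.conj (x * y)).toMonoidHom
      = (E.1.map (MulAut.conj y).toMonoidHom).map (MulAut.conj x).toMonoidHom
    rw [map_mul, Subgroup.map_map]
    rfl)

theorem homology_of_blocks [Fintype ι] (π : X → ι) (G : Subgroup (Perm X))
    (hpres : ∀ g ∈ G, ∀ x y, π x = π y → π (g x) = π (g y))
    (r : ℕ) [Fact r.Prime] (B : ι → Finset X) (hB : ∀ i x, x ∈ B i ↔ π x = i)
    (D : ∀ i, BlockData r G (B i)) :
    HasNonzeroReducedHomology (ElemAbelianPoset 2 G) := by
  classical
  have hout : ∀ (i : ι) (σ : Perm X), σ.support ⊆ B i → ∀ x, π x ≠ i → σ x = x :=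
    fun i σ hs x hx => Perm.notMem_support.1 fun h => hx ((hB i x).1 (hs h))
  have hin : ∀ (i : ι) (σ : Perm X), σ.support ⊆ B i → ∀ x, π (σ x) = π x := by
    intro i σ hs x
    by_cases h : σ x = x
    · rw [h]
    · have h1 : x ∈ σ.support := Perm.mem_support.2 h
      rw [(hB i x).1 (hs h1), (hB i (σ x)).1 (hs (Perm.apply_mem_support.2 h1))]
  have hsep : ∀ (i j : ι) (σ τ : Perm X), σ.support ⊆ B i → τ.support ⊆ B j → i ≠ j →
      σ * τ = τ * σ := by
    intro i j σ τ hσ hτ hij
    refine commute_of_disjoint_support (Finset.disjoint_left.2 fun x hx hx' => hij ?_)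
    rw [← (hB i x).1 (hσ hx), ← (hB j x).1 (hτ hx')]
  -- the cyclic element
  have hg : ∀ s : Finset ι, ∃ g ∈ G, (∀ x, g x = if π x ∈ s then (D (π x)).v x else x) ∧
      ∀ i, ∀ t ∈ (D i).T, t * g = g * t := by
    intro s
    induction s using Finset.induction_on with
    | empty => exact ⟨1, one_mem _, by simp, by simp⟩
    | @insert i s hi ih =>
      obtain ⟨g, hgG, hgx, hgc⟩ := ih
      refine ⟨(D i).v * g, mul_mem (D i).mem_v hgG, ?_, ?_⟩
      · intro x
        rw [Perm.mul_apply, hgx]
        by_cases hxi : π x = i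
        · subst hxi
          simp [hi]
        · by_cases hxs : π x ∈ s
          · rw [if_pos hxs, if_pos (Finset.mem_insert_of_mem hxs)]
            refine hout i _ (D i).supp_v _ ?_
            rw [hin (π x) _ (D (π x)).supp_v]
            exact hxi
          · rw [if_neg hxs, if_neg (by simp [hxi, hxs])]
            exact hout i _ (D i).supp_v _ hxi
      · intro j t ht
        rw [← mul_assoc, show t * (D i).v = (D i).v * t by
          by_cases hij : j = i
          · subst hij; exact (D j).comm_v t ht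
          · exact hsep j i t _ ((D j).supp_T t ht) (D i).supp_v hij,
          mul_assoc, hgc j t ht, mul_assoc]
  obtain ⟨g, hgG, hgx, hgc⟩ := hg Finset.univ
  have hgx : ∀ x, g x = (D (π x)).v x := fun x => by simp [hgx x]
  -- the r-part
  let U : Set G := {t | ∃ i, (t : Perm X) ∈ (D i).T}
  have hUcomm : ∀ a ∈ U, ∀ b ∈ U, a * b = b * a := by
    rintro a ⟨i, ha⟩ b ⟨j, hb⟩
    apply Subtype.ext
    show (a : Perm X) * b = b * a
    by_cases hij : i = j
    · subst hij; exact (D i).comm_T _ ha _ hb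
    · exact hsep i j _ _ ((D i).supp_T _ ha) ((D j).supp_T _ hb) hij
  let Q : Subgroup G := Subgroup.closure U
  have hQc : ∀ a ∈ Q, ∀ b ∈ Q, a * b = b * a := fun a ha b hb =>
    congrArg Subtype.val
      ((Subgroup.isMulCommutative_closure hUcomm).is_comm.comm ⟨a, ha⟩ ⟨b, hb⟩)
  have hQr : IsPGroup r Q := by
    intro h
    refine ⟨1, Subtype.ext ?_⟩
    rw [pow_one, Subgroup.coe_pow, OneMemClass.coe_one]
    refine Subgroup.closure_induction (p := fun a _ => a ^ r = 1) ?_ (one_pow r) ?_ ?_ h.2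
    · rintro a ⟨i, ha⟩
      exact Subtype.ext ((D i).pow_T _ ha)
    · intro a b ha hb ea eb
      rw [Commute.mul_pow (hQc a ha b hb), ea, eb, one_mul]
    · intro a _ ea
      rw [inv_pow, ea, inv_one]
  letI := conjAction 2 G
  refine hasNonzeroReducedHomology_of_no_fixed G (fun h E F hEF => ?_) r ⟨g, hgG⟩ Q hQr ?_ ?_
  · exact Subgroup.map_mono (show E.1 ≤ F.1 from hEF)
  · intro h hh
    refine Subgroup.closure_induction (p := fun a _ => a * (⟨g, hgG⟩ : G) = ⟨g, hgG⟩ * a)
      ?_ (by simp) ?_ ?_ hh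
    · rintro a ⟨i, ha⟩
      exact Subtype.ext (hgc i _ ha)
    · intro a b _ _ ea eb
      exact Commute.mul_left ea eb
    · intro a _ ea
      exact Commute.inv_left ea
  · intro E hgE hQE
    have conj_mem : ∀ h : G, h • E = E → ∀ e ∈ E.1, h * e * h⁻¹ ∈ E.1 := fun h hh e he => by
      have : h * e * h⁻¹ ∈ (h • E).1 := ⟨e, he, rfl⟩
      rwa [hh] at this
    have hmap : ∀ e : G, ∀ x y, π x = π y → π ((e : Perm X) x) = π ((e : Perm X) y) :=
      fun e => hpres _ e.2
    let E0 : Subgroup (Perm X) :=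
      { carrier := {a | ∃ e ∈ E.1, (e : Perm X) = a ∧ ∀ x, π (a x) = π x}
        mul_mem' := by
          rintro a b ⟨e, he, rfl, ha⟩ ⟨f, hf, rfl, hb⟩
          exact ⟨e * f, mul_mem he hf, rfl, fun x => by rw [Perm.mul_apply, ha, hb]⟩
        one_mem' := ⟨1, one_mem _, rfl, fun x => rfl⟩
        inv_mem' := by
          rintro a ⟨e, he, rfl, ha⟩
          refine ⟨e⁻¹, inv_mem he, rfl, fun x => ?_⟩
          have := ha ((e : Perm X)⁻¹ x)
          rw [Perm.coe_inv, Equiv.apply_symm_apply] at this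
          rw [Perm.coe_inv]
          exact this.symm }
    have hkill : ∀ a ∈ E0, a = 1 := by
      intro a ha
      ext x
      refine trivial_on_block (B (π x)) E0 ?_ ?_ ?_ (D (π x)).C (D (π x)).cycle ?_
        (D (π x)).odd (D (π x)).disjoint (D (π x)).cover ?_ a ha x ((hB _ x).2 rfl)
      · rintro _ ⟨e, he, rfl, -⟩ _ ⟨f, hf, rfl, -⟩
        exact congrArg Subtype.val (E.2.2.1 e he f hf)
      · rintro _ ⟨e, he, rfl, -⟩
        have := congrArg Subtype.val (E.2.2.2 e he)
        rwa [Subgroup.coe_pow, pow_two] at this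
      · rintro b ⟨e, he, rfl, hb⟩ y hy
        rw [hB] at hy ⊢
        rw [hb, hy]
      · intro c hc
        rcases (D (π x)).subset_C c hc with rfl | ht
        · exact (D (π x)).supp_v
        · exact (D (π x)).supp_T c ht
      · intro c hc b hb
        obtain ⟨e, he, rfl, hb⟩ := hb
        obtain ⟨h, hhE, hhc, hhb⟩ : ∃ h : G, h • E = E ∧
            (∀ y ∈ B (π x), (h : Perm X) y = c y) ∧ ∀ y, π ((h : Perm X) y) = π y := by
          rcases (D (π x)).subset_C c hc with rfl | ht
          · refine ⟨⟨g, hgG⟩, hgE, fun y hy => ?_, fun y => ?_⟩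
            · show g y = _
              rw [hgx y, (hB _ y).1 hy]
            · show π (g y) = _
              rw [hgx y, hin (π y) _ (D (π y)).supp_v]
          · have hcG := (D (π x)).mem_T c ht
            exact ⟨⟨c, hcG⟩, hQE _ (Subgroup.subset_closure ⟨π x, ht⟩), fun y _ => rfl,
              hin _ c ((D (π x)).supp_T c ht)⟩
        refine ⟨(h * e * h⁻¹ : G), ⟨h * e * h⁻¹, conj_mem h hhE e he, rfl, fun y => ?_⟩,
          fun y hy => ?_⟩
        · simp only [Subgroup.coe_mul, Subgroup.coe_inv, Perm.mul_apply]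
          rw [hhb, hb]
          have := hhb ((h : Perm X)⁻¹ y)
          rw [Perm.coe_inv, Equiv.apply_symm_apply] at this
          rw [Perm.coe_inv]
          exact this.symm
        · have hey : (e : Perm X) y ∈ B (π x) := by
            rw [hB] at hy ⊢
            rw [hb, hy]
          rw [← hhc y hy, ← hhc _ hey]
          simp only [Subgroup.coe_mul, Subgroup.coe_inv, Perm.mul_apply, Perm.coe_inv,
            Equiv.symm_apply_apply]
    have hpresE : ∀ e ∈ E.1, ∀ x, π ((e : Perm X) x) = π x := by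
      intro e he x
      obtain ⟨t, ht, ht1⟩ := (D (π x)).ne_one
      have hts := (D (π x)).supp_T t ht
      let t' : G := ⟨t, (D (π x)).mem_T t ht⟩
      have htE : t' • E = E := hQE t' (Subgroup.subset_closure ⟨π x, ht⟩)
      have hk : e * (t' * e⁻¹ * t'⁻¹) ∈ E.1 :=
        mul_mem he (conj_mem t' htE _ (inv_mem he))
      have hk0 : ((e * (t' * e⁻¹ * t'⁻¹) : G) : Perm X) ∈ E0 := by
        refine ⟨_, hk, rfl, fun y => ?_⟩
        simp only [Subgroup.coe_mul, Subgroup.coe_inv, Perm.mul_apply]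
        rw [hmap e _ _ (hin (π x) t hts _)]
        rw [Perm.coe_inv, Equiv.apply_symm_apply]
        have := hin (π x) t hts (t⁻¹ y)
        rw [Perm.coe_inv, Equiv.apply_symm_apply] at this
        exact this.symm
      have hc : (e : Perm X) * t = t * e := by
        have := hkill _ hk0
        simp only [Subgroup.coe_mul, Subgroup.coe_inv, t', ← mul_assoc] at this
        rwa [mul_inv_eq_one, mul_inv_eq_iff_eq_mul] at this
      obtain ⟨z, hz⟩ : t.support.Nonempty :=
        Finset.nonempty_iff_ne_empty.2 fun h => ht1 (Perm.support_eq_empty_iff.1 h)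
      have hez : (e : Perm X) z ∈ t.support := by
        rw [Perm.mem_support] at hz ⊢
        rw [← Perm.mul_apply, ← hc, Perm.mul_apply]
        exact fun h => hz ((e : Perm X).injective h)
      rw [hmap e x z ((hB _ z).1 (hts hz)).symm, (hB _ _).1 (hts hez)]
    apply E.2.1
    rw [Subgroup.eq_bot_iff_forall]
    intro e he
    exact Subtype.ext (hkill _ ⟨e, he, rfl, hpresE e he⟩)

end Group

end Vale.Agent.P240
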